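import Vale.Agent.P011.H961.Loc
import Vale.Agent.P011.H487.LinMat

/-!
The two local properties of `GL_n(L)`, `n ≥ 2`, over a nontrivially normed field `L`.
-/

open Matrix

namespace Vale.Agent.P011.H710

open Vale.Agent.P011.H961 Vale.Agent.P011.H487.Lin

section gl

variable {L : Type*} [NontriviallyNormedField L] {n : ℕ}

/-- powers of a diagonal unit make an off-diagonal entry large -/
theorem exists_large {j : Fin n} {t : Lˣ} (ht : 1 < ‖(t : L)‖) (y : (Matrix (Fin n) (Fin n) L)ˣ)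
    {i : Fin n} (hij : i ≠ j) (hy : (y : Matrix (Fin n) (Fin n) L) i j ≠ 0) (R1 : ℝ) :
    ∃ m : ℕ, ¬ Eb R1 ((((dg (Pi.mulSingle j t)) ^ m)⁻¹ * y * (dg (Pi.mulSingle j t)) ^ m :
      (Matrix (Fin n) (Fin n) L)ˣ) : Matrix (Fin n) (Fin n) L) := by
  obtain ⟨m, hm⟩ := pow_unbounded_of_one_lt
    (R1 / ‖(y : Matrix (Fin n) (Fin n) L) i j‖) ht
  refine ⟨m, fun hE => ?_⟩
  have h1 := hE i j
  have h2 : ((((dg (Pi.mulSingle j t)) ^ m)⁻¹ * y * (dg (Pi.mulSingle j t)) ^ m :
      (Matrix (Fin n) (Fin n) L)ˣ) : Matrix (Fin n) (Fin n) L) i j =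
      (y : Matrix (Fin n) (Fin n) L) i j * (t : L) ^ m := by
    rw [← map_pow, ← map_inv, Units.val_mul, Units.val_mul, dg_val, dg_val, mul_diagonal,
      diagonal_mul]
    rw [Pi.inv_apply, Pi.pow_apply, Pi.pow_apply, Pi.mulSingle_eq_same,
      Pi.mulSingle_eq_of_ne hij, one_pow, inv_one, Units.val_one, one_mul, Units.val_pow_eq_pow_val]
  rw [h2, norm_mul, norm_pow] at h1
  have h3 : 0 < ‖(y : Matrix (Fin n) (Fin n) L) i j‖ := norm_pos_iff.2 hy
  rw [div_lt_iff₀ h3] at hm
  linarith [mul_comm (‖(t : L)‖ ^ m) ‖(y : Matrix (Fin n) (Fin n) L) i j‖]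

theorem unbd_gl (hn : 2 ≤ n) : Unbd (⊤ : Subgroup (Matrix (Fin n) (Fin n) L)ˣ) := by
  obtain ⟨t0, ht0⟩ := NormedField.exists_one_lt_norm L
  have ht00 : t0 ≠ 0 := by
    rintro rfl
    rw [norm_zero] at ht0
    linarith
  obtain ⟨t, rfl⟩ : ∃ t : Lˣ, (t : L) = t0 := ⟨Units.mk0 t0 ht00, rfl⟩
  have hti : ‖((t⁻¹ : Lˣ) : L)‖ ≤ 1 := by
    rw [Units.val_inv_eq_inv_val, norm_inv]
    exact inv_le_one_of_one_le₀ ht0.le
  have hdgb : ∀ j : Fin n, Ub ‖(t : L)‖ (dg (Pi.mulSingle j t) : (Matrix (Fin n) (Fin n) L)ˣ) := by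
    intro j
    constructor
    · intro a b
      rw [dg_val]
      by_cases hab : a = b
      · subst hab
        rw [diagonal_apply_eq]
        by_cases haj : a = j
        · subst haj; rw [Pi.mulSingle_eq_same]
        · rw [Pi.mulSingle_eq_of_ne haj, Units.val_one, norm_one]; exact ht0.le
      · rw [diagonal_apply_ne _ hab, norm_zero]; linarith
    · intro a b
      rw [← map_inv, dg_val]
      by_cases hab : a = b
      · subst hab
        rw [diagonal_apply_eq, Pi.inv_apply]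
        by_cases haj : a = j
        · subst haj; rw [Pi.mulSingle_eq_same]; linarith
        · rw [Pi.mulSingle_eq_of_ne haj, inv_one, Units.val_one, norm_one]; exact ht0.le
      · rw [diagonal_apply_ne _ hab, norm_zero]; linarith
  refine ⟨‖(t : L)‖, fun x _ hx R1 => ?_⟩
  by_cases hoff : ∃ i j : Fin n, i ≠ j ∧ (x : Matrix (Fin n) (Fin n) L) i j ≠ 0
  · obtain ⟨i, j, hij, hxij⟩ := hoff
    obtain ⟨m, hm⟩ := exists_large ht0 x hij hxij R1
    refine ⟨List.replicate m (dg (Pi.mulSingle j t)), ?_, ?_⟩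
    · intro s hs
      rw [List.eq_of_mem_replicate hs]
      exact ⟨Subgroup.mem_top _, hdgb j⟩
    · rwa [List.prod_replicate]
  · push Not at hoff
    obtain ⟨i, j, hij⟩ : ∃ i j : Fin n, (x : Matrix (Fin n) (Fin n) L) i i ≠
        (x : Matrix (Fin n) (Fin n) L) j j := by
      by_contra hne
      push Not at hne
      apply hx ((x : Matrix (Fin n) (Fin n) L) ⟨0, by omega⟩ ⟨0, by omega⟩)
      ext a b
      rw [Matrix.smul_apply, smul_eq_mul]
      by_cases hab : a = b
      · subst hab; rw [one_apply_eq, mul_one]; exact hne _ _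
      · rw [one_apply_ne hab, mul_zero]; exact hoff a b hab
    have hij' : i ≠ j := by
      rintro rfl; exact hij rfl
    have hx0 : (Pi.single j 1 : Fin n → L) ⬝ᵥ Pi.single i 1 = 0 := by
      rw [dotProduct_single, Pi.single_eq_of_ne hij', zero_mul]
    obtain ⟨g, hg⟩ : ∃ g, g = tvm _ _ hx0 := ⟨_, rfl⟩
    have hgv : (g : Matrix (Fin n) (Fin n) L) =
        1 + vecMulVec (Pi.single i 1) (Pi.single j 1) := by rw [hg, tvm_val]
    have hgi : ((g⁻¹ : (Matrix (Fin n) (Fin n) L)ˣ) : Matrix (Fin n) (Fin n) L) =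
        1 - vecMulVec (Pi.single i 1) (Pi.single j 1) := by rw [hg, tvm_inv_val]
    have hvv : ∀ a b : Fin n, (vecMulVec (Pi.single i (1 : L)) (Pi.single j 1) :
        Matrix (Fin n) (Fin n) L) a b = if a = i ∧ b = j then 1 else 0 := by
      intro a b
      rw [vecMulVec_apply]
      by_cases ha : a = i
      · by_cases hb : b = j
        · subst ha hb; rw [Pi.single_eq_same, Pi.single_eq_same, mul_one, if_pos ⟨rfl, rfl⟩]
        · rw [Pi.single_eq_of_ne hb, mul_zero, if_neg (fun h => hb h.2)]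
      · rw [Pi.single_eq_of_ne ha, zero_mul, if_neg (fun h => ha h.1)]
    have h1a : ∀ a b : Fin n, ‖(1 : Matrix (Fin n) (Fin n) L) a b‖ ≤ 1 ∧
        (a = i ∧ b = j → (1 : Matrix (Fin n) (Fin n) L) a b = 0) := by
      intro a b
      constructor
      · by_cases hab : a = b
        · rw [hab, one_apply_eq, norm_one]
        · rw [one_apply_ne hab, norm_zero]; exact zero_le_one
      · rintro ⟨rfl, rfl⟩; rw [one_apply_ne hij']
    have hgb : Ub ‖(t : L)‖ g := by
      constructor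
      · intro a b
        rw [hgv, Matrix.add_apply, hvv]
        by_cases hab : a = i ∧ b = j
        · rw [if_pos hab, (h1a a b).2 hab, zero_add, norm_one]; exact ht0.le
        · rw [if_neg hab, add_zero]; exact (h1a a b).1.trans ht0.le
      · intro a b
        rw [hgi, Matrix.sub_apply, hvv]
        by_cases hab : a = i ∧ b = j
        · rw [if_pos hab, (h1a a b).2 hab, zero_sub, norm_neg, norm_one]; exact ht0.le
        · rw [if_neg hab, sub_zero]; exact (h1a a b).1.trans ht0.le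
    have hent : ((g⁻¹ * x * g : (Matrix (Fin n) (Fin n) L)ˣ) : Matrix (Fin n) (Fin n) L) i j ≠ 0 := by
      have e1 : ((g⁻¹ * x * g : (Matrix (Fin n) (Fin n) L)ˣ) : Matrix (Fin n) (Fin n) L) i j =
          (x : Matrix (Fin n) (Fin n) L) i i - (x : Matrix (Fin n) (Fin n) L) j j := by
        rw [Units.val_mul, Units.val_mul, hgv, hgi, Matrix.sub_mul, Matrix.one_mul, Matrix.mul_add,
          Matrix.mul_one, Matrix.add_apply, Matrix.sub_apply, mul_vecMulVec, vecMulVec_apply,
          Pi.single_eq_same, mul_one, Matrix.sub_mulVec]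
        simp [vecMulVec_mul, hoff i j hij', hoff j i (Ne.symm hij'), vecMulVec_apply]
        ring
      rw [e1]; exact sub_ne_zero.2 hij
    obtain ⟨m, hm⟩ := exists_large ht0 _ hij' hent R1
    refine ⟨g :: List.replicate m (dg (Pi.mulSingle j t)), ?_, ?_⟩
    · intro s hs
      rw [List.mem_cons] at hs
      rcases hs with rfl | hs
      · exact ⟨Subgroup.mem_top _, hgb⟩
      · rw [List.eq_of_mem_replicate hs]
        exact ⟨Subgroup.mem_top _, hdgb j⟩
    · rw [List.prod_cons, List.prod_replicate]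
      have : (g * dg (Pi.mulSingle j t) ^ m)⁻¹ * x * (g * dg (Pi.mulSingle j t) ^ m) =
          (dg (Pi.mulSingle j t) ^ m)⁻¹ * (g⁻¹ * x * g) * dg (Pi.mulSingle j t) ^ m := by group
      rwa [this]

theorem exists_pow_ne : ∃ a : L, a ≠ 0 ∧ a ^ 4 ≠ 1 := by
  obtain ⟨t0, ht0⟩ := NormedField.exists_one_lt_norm L
  refine ⟨t0, ?_, ?_⟩
  · rintro rfl
    rw [norm_zero] at ht0
    linarith
  · intro h
    have h1 := congrArg norm h
    rw [norm_pow, norm_one] at h1
    have := one_lt_pow₀ ht0 (n := 4) (by norm_num)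
    linarith

theorem locN_gl (hn : 2 ≤ n) : LocN (⊤ : Subgroup (Matrix (Fin n) (Fin n) L)ˣ) := by
  intro H _ hH hns g _ hg
  obtain ⟨a, ha0, ha4⟩ := exists_pow_ne (L := L)
  refine mat_S2_field ha0 ha4 (by rw [Fintype.card_fin]; exact hn)
    (fun S _ T hT => hH S (Subgroup.mem_top S) T hT) ?_ g hg
  obtain ⟨h, hh, hh'⟩ := hns
  refine ⟨h, hh, fun c hc => hh' c ?_⟩
  rw [hc]
  ext a b
  rw [Matrix.smul_apply, smul_eq_mul]
  by_cases hab : a = b
  · subst hab; rw [one_apply_eq, mul_one, diagonal_apply_eq]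
  · rw [one_apply_ne hab, mul_zero, diagonal_apply_ne _ hab]

end gl

end Vale.Agent.P011.H710
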