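import Vale.Agent.P011.H961.Loc
import Vale.Agent.P011.H487.HermMat

/-!
The two local properties of the unitary group of an isotropic nondegenerate hermitian matrix over
a nontrivially normed field with an isometric nontrivial involution.
-/

open Matrix

namespace Vale.Agent.P011.H710

open Vale.Agent.P011.H961 Vale.Agent.P011.H487

section un

variable {L : Type*} [NontriviallyNormedField L] [StarRing L] {n : ℕ}

/-- a symmetric element of large norm -/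
theorem exists_sym (hst : ∀ x : L, ‖star x‖ = ‖x‖) :
    ∃ a : L, a ≠ 0 ∧ star a = a ∧ 1 < ‖a‖ := by
  obtain ⟨t, ht⟩ := NormedField.exists_one_lt_norm L
  refine ⟨t * star t, ?_, ?_, ?_⟩
  · intro h
    have h1 := congrArg norm h
    rw [norm_mul, hst, norm_zero] at h1
    nlinarith
  · rw [star_mul', star_star, mul_comm]
  · rw [norm_mul, hst]; nlinarith

/-- bounded entries give a bounded form -/
theorem form_le {J : Matrix (Fin n) (Fin n) L} (hJ : Jᴴ = J) (e v : Fin n → L) :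
    ∃ C : ℝ, ∀ (R1 : ℝ) (M : Matrix (Fin n) (Fin n) L), Eb R1 M →
      ‖(colForm J hJ).b (M *ᵥ e) v‖ ≤ C * R1 := by
  refine ⟨∑ i, ∑ j, ‖(star v ᵥ* J) i‖ * ‖e j‖, fun R1 M hM => ?_⟩
  have h1 : (colForm J hJ).b (M *ᵥ e) v = ∑ i, ∑ j, (star v ᵥ* J) i * (M i j * e j) := by
    rw [colForm_b, dotProduct_mulVec]
    unfold mulVec dotProduct
    apply Finset.sum_congr rfl
    intro i _
    rw [Finset.mul_sum]
  rw [h1, Finset.sum_mul]
  refine (norm_sum_le _ _).trans (Finset.sum_le_sum fun i _ => ?_)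
  rw [Finset.sum_mul]
  refine (norm_sum_le _ _).trans (Finset.sum_le_sum fun j _ => ?_)
  rw [norm_mul, norm_mul]
  have h2 := hM i j
  have h3 : 0 ≤ ‖(star v ᵥ* J) i‖ * ‖e j‖ := by positivity
  nlinarith [mul_le_mul_of_nonneg_left h2 h3]

/-- evaluation at a column -/
def ev (z : Fin n → L) : Matrix (Fin n) (Fin n) L →ₗ[L] (Fin n → L) where
  toFun M := M *ᵥ z
  map_add' M N := add_mulVec M N z
  map_smul' a M := smul_mulVec a M z

omit [StarRing L] in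
theorem ev_apply (z : Fin n → L) (M : Matrix (Fin n) (Fin n) L) : ev z M = M *ᵥ z := rfl

/-- the key step: a torus element at `e` -/
theorem exists_large_u {J : Matrix (Fin n) (Fin n) L} (hJ : Jᴴ = J)
    (hnd : (colForm J hJ).Nondeg) {a : L} (ha : star a = a)
    (ha1 : 1 < ‖a‖) {e f : Fin n → L} (p : (colForm J hJ).Hyp e f)
    {d : (Matrix (Fin n) (Fin n) L)ˣ} (hd : unitEquiv d ∈ (colForm J hJ).U)
    (hde : unitEquiv d e = a • e)
    (hdy : ∀ y, (colForm J hJ).b y e = 0 → (colForm J hJ).b y f = 0 → unitEquiv d y = y)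
    {x : (Matrix (Fin n) (Fin n) L)ˣ}
    (hxe : ∀ c : L, (x : Matrix (Fin n) (Fin n) L) *ᵥ e ≠ c • e) (R1 : ℝ) :
    ∃ m : ℕ, ¬ Eb R1 (((d ^ m)⁻¹ * x * d ^ m :
      (Matrix (Fin n) (Fin n) L)ˣ) : Matrix (Fin n) (Fin n) L) := by
  by_contra hcon
  push Not at hcon
  set h := colForm J hJ with hh
  have hdm : ∀ m : ℕ, unitEquiv (d ^ m) ∈ h.U := fun m => by
    rw [map_pow]; exact pow_mem hd m
  have hdme : ∀ m : ℕ, unitEquiv (d ^ m) e = a ^ m • e := by
    intro m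
    induction m with
    | zero => rw [pow_zero, pow_zero, one_smul, map_one]; rfl
    | succ m ih =>
      rw [pow_succ, map_mul, LinearEquiv.mul_apply, hde, map_smul, ih, smul_smul, pow_succ,
        mul_comm]
  have hdmy : ∀ (m : ℕ) (y : Fin n → L), h.b y e = 0 → h.b y f = 0 →
      unitEquiv (d ^ m) y = y := by
    intro m y h1 h2
    induction m with
    | zero => rw [pow_zero, map_one]; rfl
    | succ m ih => rw [pow_succ, map_mul, LinearEquiv.mul_apply, hdy y h1 h2, ih]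
  -- the value of the form
  have key : ∀ (m : ℕ) (v : Fin n → L),
      h.b ((((d ^ m)⁻¹ * x * d ^ m : (Matrix (Fin n) (Fin n) L)ˣ) :
        Matrix (Fin n) (Fin n) L) *ᵥ e) v =
      a ^ m * h.b ((x : Matrix (Fin n) (Fin n) L) *ᵥ e) (unitEquiv (d ^ m) v) := by
    intro m v
    have e1 : (((d ^ m)⁻¹ * x * d ^ m : (Matrix (Fin n) (Fin n) L)ˣ) :
        Matrix (Fin n) (Fin n) L) *ᵥ e =
        (unitEquiv (d ^ m))⁻¹ (a ^ m • ((x : Matrix (Fin n) (Fin n) L) *ᵥ e)) := by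
      rw [← unitEquiv_apply, map_mul, map_mul, LinearEquiv.mul_apply, LinearEquiv.mul_apply,
        hdme, map_smul, map_inv, unitEquiv_apply x]
    rw [e1, h.b_inv (hdm m), h.smul_left]
  have hgrow : ∀ c : L, (∃ C : ℝ, ∀ m : ℕ, ‖a ^ m * c‖ ≤ C) → c = 0 := by
    rintro c ⟨C, hC⟩
    by_contra hc
    have hc' : 0 < ‖c‖ := norm_pos_iff.2 hc
    obtain ⟨m, hm⟩ := pow_unbounded_of_one_lt (C / ‖c‖) ha1
    have := hC m
    rw [norm_mul, norm_pow] at this
    rw [div_lt_iff₀ hc'] at hm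
    linarith
  have h1 : ∀ v : Fin n → L, h.b v e = 0 → h.b v f = 0 →
      h.b ((x : Matrix (Fin n) (Fin n) L) *ᵥ e) v = 0 := by
    intro v hv1 hv2
    obtain ⟨C, hC⟩ := form_le hJ e v
    refine hgrow _ ⟨C * R1, fun m => ?_⟩
    have := hC R1 _ (hcon m)
    rw [← hh, key, hdmy m v hv1 hv2] at this
    exact this
  have h2 : h.b ((x : Matrix (Fin n) (Fin n) L) *ᵥ e) e = 0 := by
    obtain ⟨C, hC⟩ := form_le hJ e e
    by_contra h0
    have hc' : 0 < ‖h.b ((x : Matrix (Fin n) (Fin n) L) *ᵥ e) e‖ := norm_pos_iff.2 h0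
    obtain ⟨m, hm⟩ := pow_unbounded_of_one_lt
      (C * R1 / ‖h.b ((x : Matrix (Fin n) (Fin n) L) *ᵥ e) e‖) ha1
    have h5 := hC R1 _ (hcon m)
    rw [← hh, key, hdme, h.smul_right, star_pow, ha, norm_mul, norm_mul, norm_pow] at h5
    rw [div_lt_iff₀ hc'] at hm
    have h6 : 1 ≤ ‖a‖ ^ m := one_le_pow₀ ha1.le
    have h7 : ‖a‖ ^ m * ‖h.b ((x : Matrix (Fin n) (Fin n) L) *ᵥ e) e‖ ≤
        ‖a‖ ^ m * (‖a‖ ^ m * ‖h.b ((x : Matrix (Fin n) (Fin n) L) *ᵥ e) e‖) := by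
      have : 0 ≤ ‖a‖ ^ m * ‖h.b ((x : Matrix (Fin n) (Fin n) L) *ᵥ e) e‖ := by positivity
      nlinarith
    linarith
  apply hxe (h.b ((x : Matrix (Fin n) (Fin n) L) *ᵥ e) f)
  rw [← sub_eq_zero]
  apply hnd
  intro v
  -- decompose v
  have h3 := h1 (v - h.b v f • e - h.b v e • f) (by
    rw [h.sub_left, h.sub_left, h.smul_left, h.smul_left, p.ee, p.fe]; ring) (by
    rw [h.sub_left, h.sub_left, h.smul_left, h.smul_left, p.ef, p.ff]; ring)
  rw [h.sub_right, h.sub_right, h.smul_right, h.smul_right, h2, mul_zero, sub_zero,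
    h.star_b v e] at h3
  rw [h.sub_right, h.smul_right, ← h.star_b, sub_eq_zero.1 h3, star_mul', h.star_b, ← h.star_b f,
    h.star_b]
  ring

theorem unbd_u (hne : ∃ x : L, star x ≠ x) (hst : ∀ x : L, ‖star x‖ = ‖x‖)
    {H : Matrix (Fin n) (Fin n) L} (hH : Hᴴ = H) (hdet : H.det ≠ 0)
    (hiso : ∃ x : Fin n → L, x ≠ 0 ∧ x ⬝ᵥ (H *ᵥ star x) = 0) : Unbd (UH H) := by
  have hJ := isHerm_inv hH
  have hnd := colForm_nondeg hdet hJ
  have hiso' := colForm_iso hH hdet hJ hiso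
  obtain ⟨a, ha0, ha, ha1⟩ := exists_sym hst
  set h := colForm H⁻¹ hJ with hh
  -- the torus elements
  have ht : ∀ z : {z : Fin n → L // z ≠ 0 ∧ h.b z z = 0}, ∃ (f : Fin n → L)
      (d : (Matrix (Fin n) (Fin n) L)ˣ), h.Hyp z.1 f ∧ unitEquiv d ∈ h.U ∧
      unitEquiv d z.1 = a • z.1 ∧ ∀ y, h.b y z.1 = 0 → h.b y f = 0 → unitEquiv d y = y := by
    rintro ⟨z, hz0, hz⟩
    obtain ⟨f, p⟩ := HForm.exists_hyp hne hnd hz0 hz
    obtain ⟨g, hg, hge, -, hgy⟩ := p.tor hne ha0 ha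
    obtain ⟨d, rfl⟩ := unitEquiv.surjective g
    exact ⟨f, d, p, h.T_le_U hg, hge, hgy⟩
  choose f d p hd hde hdy using ht
  obtain ⟨s, hs⟩ := Finset.exists_inf_le (fun z : {z : Fin n → L // z ≠ 0 ∧ h.b z z = 0} =>
    (Submodule.span L {z.1}).comap (ev z.1))
  obtain ⟨R, hR⟩ : ∃ R : ℝ, ∀ z ∈ s, Ub R (d z) := by
    refine ⟨∑ z ∈ s, ((∑ i, ∑ j, ‖(d z : Matrix (Fin n) (Fin n) L) i j‖) +
      ∑ i, ∑ j, ‖(((d z)⁻¹ : (Matrix (Fin n) (Fin n) L)ˣ) : Matrix (Fin n) (Fin n) L) i j‖),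
      fun z hz => ?_⟩
    have h1 : ∀ M : Matrix (Fin n) (Fin n) L, ∀ i j, ‖M i j‖ ≤ ∑ i, ∑ j, ‖M i j‖ := by
      intro M i j
      calc ‖M i j‖ ≤ ∑ j, ‖M i j‖ :=
            Finset.single_le_sum (f := fun j => ‖M i j‖) (fun _ _ => norm_nonneg _)
              (Finset.mem_univ j)
        _ ≤ ∑ i, ∑ j, ‖M i j‖ :=
            Finset.single_le_sum (f := fun i => ∑ j, ‖M i j‖)
              (fun _ _ => Finset.sum_nonneg fun _ _ => norm_nonneg _) (Finset.mem_univ i)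
    have h2 := Finset.single_le_sum (f := fun z =>
      ((∑ i, ∑ j, ‖(d z : Matrix (Fin n) (Fin n) L) i j‖) +
      ∑ i, ∑ j, ‖(((d z)⁻¹ : (Matrix (Fin n) (Fin n) L)ˣ) : Matrix (Fin n) (Fin n) L) i j‖))
      (fun _ _ => by positivity) hz
    have h3 : ∀ M : Matrix (Fin n) (Fin n) L, 0 ≤ ∑ i, ∑ j, ‖M i j‖ := fun M => by positivity
    constructor
    · intro i j
      refine (h1 _ i j).trans (le_trans ?_ h2)
      linarith [h3 (((d z)⁻¹ : (Matrix (Fin n) (Fin n) L)ˣ) : Matrix (Fin n) (Fin n) L)]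
    · intro i j
      refine (h1 _ i j).trans (le_trans ?_ h2)
      linarith [h3 (d z : Matrix (Fin n) (Fin n) L)]
  refine ⟨R, fun x hx hxs R1 => ?_⟩
  have hxU : unitEquiv x ∈ h.U := (unitEquiv_mem_U hdet hJ x).2 hx
  obtain ⟨z, hz0, hz, hzm⟩ := HForm.exists_iso_moved hne hnd hiso' hxU (by
    intro c
    by_contra hcon
    push Not at hcon
    apply hxs c
    apply Matrix.ext_of_mulVec_single
    intro j
    rw [smul_mulVec, one_mulVec, ← hcon]; rfl)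
  have hx1 : (x : Matrix (Fin n) (Fin n) L) ∉ (Submodule.span L {z}).comap (ev z) := by
    rw [Submodule.mem_comap, Submodule.mem_span_singleton]
    rintro ⟨c, hc⟩
    exact hzm c hc.symm
  obtain ⟨z', hz', hx2⟩ : ∃ z' ∈ s,
      (x : Matrix (Fin n) (Fin n) L) ∉ (Submodule.span L {z'.1}).comap (ev z'.1) := by
    by_contra hcon
    push Not at hcon
    apply hx1
    apply hs ⟨z, hz0, hz⟩
    rw [Submodule.mem_finsetInf]
    exact hcon
  obtain ⟨m, hm⟩ := exists_large_u hJ hnd ha ha1 (p z') (hd z') (hde z') (hdy z') (x := x)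
    (fun c hc => hx2 (by
      rw [Submodule.mem_comap, Submodule.mem_span_singleton]
      exact ⟨c, hc.symm⟩)) R1
  refine ⟨List.replicate m (d z'), ?_, ?_⟩
  · intro t ht
    rw [List.eq_of_mem_replicate ht]
    exact ⟨(unitEquiv_mem_U hdet hJ _).1 (hd z'), hR z' hz'⟩
  · rwa [List.prod_replicate]

theorem locN_u (hne : ∃ x : L, star x ≠ x) (hst : ∀ x : L, ‖star x‖ = ‖x‖)
    {H : Matrix (Fin n) (Fin n) L} (hH : Hᴴ = H) (hdet : H.det ≠ 0)
    (hiso : ∃ x : Fin n → L, x ≠ 0 ∧ x ⬝ᵥ (H *ᵥ star x) = 0) : LocN (UH H) := by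
  intro Γ hΓU hΓ hns g hg hgd
  obtain ⟨a, ha0, ha, ha1⟩ := exists_sym hst
  refine mat_NS2 hne ⟨a, ha0, ha, ?_⟩ hH hdet hiso (fun T hT => hΓU hT)
    (fun S hS _ T hT => hΓ S hS T hT) hns g hg hgd
  intro h
  have h1 := congrArg norm h
  rw [norm_pow, norm_one] at h1
  have := one_lt_pow₀ ha1 (n := 4) (by norm_num)
  linarith

end un

end Vale.Agent.P011.H710
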